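import Vale.Agent.P363.R.KS.Calc
import Vale.Agent.P363.R.Sob.S08

/-! B6.SUB: the square root of `ρ = ∑ⱼ hⱼ²` is a weak subsolution when every `hⱼ` solves
`(-½Δ+v-μ) hⱼ = -δ cⱼ φ`, `∑ⱼ cⱼ hⱼ = 2φ`. -/

namespace Vale.Agent.P363.H884

open MeasureTheory Filter Topology
open Vale.Agent.P363.Stmt (R3 MemV)
open Vale.Agent.P363.R.Sob
open Vale.Agent.P363.R.KS
open scoped ContDiff ENNReal NNReal

noncomputable section

/-! ### sums of nonnegative integrable functions -/

section Sums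

variable {α : Type*} [MeasurableSpace α] {ν : Measure α} {ι : Type*} [Countable ι]

theorem summable_ae_of_integral {f : ι → α → ℝ} (hf : ∀ j, Integrable (f j) ν)
    (h0 : ∀ j x, 0 ≤ f j x) (hs : Summable fun j => ∫ x, f j x ∂ν) :
    (∀ᵐ x ∂ν, Summable fun j => f j x) ∧ Integrable (fun x => ∑' j, f j x) ν := by
  have hfin : ∫⁻ x, ∑' j, ENNReal.ofReal (f j x) ∂ν ≠ ⊤ := by
    rw [lintegral_tsum fun j => (hf j).aemeasurable.ennreal_ofReal]
    have e : ∀ j, ∫⁻ x, ENNReal.ofReal (f j x) ∂ν = ENNReal.ofReal (∫ x, f j x ∂ν) := fun j =>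
      (ofReal_integral_eq_lintegral_ofReal (hf j) (Eventually.of_forall (h0 j))).symm
    simp only [e]
    exact hs.tsum_ofReal_ne_top
  have hm : AEMeasurable (fun x => ∑' j, ENNReal.ofReal (f j x)) ν :=
    AEMeasurable.tsum fun j => (hf j).aemeasurable.ennreal_ofReal
  have hae : ∀ᵐ x ∂ν, ∑' j, ENNReal.ofReal (f j x) < ⊤ := ae_lt_top' hm hfin
  have hsum : ∀ᵐ x ∂ν, Summable fun j => f j x := by
    filter_upwards [hae] with x hx
    have := ENNReal.summable_toReal hx.ne
    simpa only [ENNReal.toReal_ofReal (h0 _ x)] using this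
  refine ⟨hsum, ?_⟩
  have := integrable_toReal_of_lintegral_ne_top hm hfin
  refine this.congr ?_
  filter_upwards [hsum] with x hx
  rw [← ENNReal.ofReal_tsum_of_nonneg (fun j => h0 j x) hx,
    ENNReal.toReal_ofReal (tsum_nonneg fun j => h0 j x)]

end Sums

/-- Cauchy-Schwarz for `HasSum` -/
theorem sq_sum_le {ι : Type*} {a b : ι → ℝ} {A B : ℝ} (ha : HasSum (fun j => a j ^ 2) A)
    (hb : HasSum (fun j => b j ^ 2) B) (F : Finset ι) :
    (∑ j ∈ F, a j * b j) ^ 2 ≤ A * B := by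
  refine (Finset.sum_mul_sq_le_sq_mul_sq F a b).trans ?_
  refine mul_le_mul (sum_le_hasSum F (fun j _ => sq_nonneg _) ha)
    (sum_le_hasSum F (fun j _ => sq_nonneg _) hb) (Finset.sum_nonneg fun j _ => sq_nonneg _)
    (ha.nonneg fun j => sq_nonneg _)

theorem summable_mul_of_sq {ι : Type*} {a b : ι → ℝ} (ha : Summable (fun j => a j ^ 2))
    (hb : Summable (fun j => b j ^ 2)) : Summable (fun j => a j * b j) := by
  refine Summable.of_norm_bounded (g := fun j => a j ^ 2 + b j ^ 2) (ha.add hb) fun j => ?_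
  rw [Real.norm_eq_abs, abs_le]
  constructor <;> nlinarith [sq_nonneg (a j + b j), sq_nonneg (a j - b j)]

/-! ### the density -/

section Dens

variable {ι : Type*} [Countable ι] {h : ι → R3 → ℝ} {ρ : R3 → ℝ}

omit [Countable ι] in
theorem dens_nonneg (dens : ∀ᵐ x, HasSum (fun j => h j x ^ 2) (ρ x)) :
    ∀ᵐ x, 0 ≤ ρ x := by
  filter_upwards [dens] with x hx using hx.nonneg fun j => sq_nonneg _

theorem sqrt_memLp (di : Integrable ρ (volume : Measure R3)) (h0 : ∀ᵐ x, 0 ≤ ρ x) :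
    MemLp (fun x => Real.sqrt (ρ x)) 2 (volume : Measure R3) := by
  have hm : AEStronglyMeasurable (fun x => Real.sqrt (ρ x)) (volume : Measure R3) :=
    Real.continuous_sqrt.comp_aestronglyMeasurable di.1
  rw [memLp_two_iff_integrable_sq hm]
  refine di.congr ?_
  filter_upwards [h0] with x hx
  rw [Real.sq_sqrt hx]

theorem sum_eq_ae (hm : ∀ j, MemLp (h j) 2 (volume : Measure R3))
    (dens : ∀ᵐ x, HasSum (fun j => h j x ^ 2) (ρ x)) (di : Integrable ρ (volume : Measure R3))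
    {c : ι → ℝ} {S : ℝ} (hc : HasSum (fun j => c j ^ 2) S) {w : R3 → ℝ}
    (hw : MemLp w 2 (volume : Measure R3))
    (hsum : ∀ u : R3 → ℝ, MemLp u 2 (volume : Measure R3) →
      HasSum (fun j => c j * ∫ x, u x * h j x) (∫ x, u x * w x)) :
    ∀ᵐ x, HasSum (fun j => c j * h j x) (w x) := by
  have h0 := dens_nonneg dens
  have hs : MemLp (fun x => Real.sqrt (ρ x)) 2 (volume : Measure R3) := sqrt_memLp di h0
  have hS : 0 ≤ S := hc.nonneg fun j => sq_nonneg _
  have hbd : ∀ᵐ x, ∀ F : Finset ι, |∑ j ∈ F, c j * h j x| ≤ Real.sqrt S * Real.sqrt (ρ x) := by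
    filter_upwards [dens] with x hx F
    rw [← Real.sqrt_mul hS, ← Real.sqrt_sq_eq_abs]
    exact Real.sqrt_le_sqrt (sq_sum_le hc hx F)
  have hsm : ∀ᵐ x, Summable fun j => c j * h j x := by
    filter_upwards [dens] with x hx
    exact summable_mul_of_sq hc.summable hx.summable
  set W : R3 → ℝ := fun x => ∑' j, c j * h j x with hW
  have hWt : ∀ᵐ x, Tendsto (fun F : Finset ι => ∑ j ∈ F, c j * h j x) atTop (𝓝 (W x)) := by
    filter_upwards [hsm] with x hx using hx.hasSum
  have hFm : ∀ F : Finset ι, AEStronglyMeasurable (fun x => ∑ j ∈ F, c j * h j x)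
      (volume : Measure R3) := fun F =>
    Finset.aestronglyMeasurable_fun_sum _ fun j _ => (hm j).1.const_mul _
  have hWm : AEStronglyMeasurable W (volume : Measure R3) :=
    aestronglyMeasurable_of_tendsto_ae atTop hFm hWt
  have hWb : ∀ᵐ x, |W x| ≤ Real.sqrt S * Real.sqrt (ρ x) := by
    filter_upwards [hWt, hbd] with x h1 h2
    exact le_of_tendsto h1.abs (Eventually.of_forall h2)
  have hWL : MemLp W 2 (volume : Measure R3) := by
    refine (hs.const_mul (Real.sqrt S)).of_le hWm ?_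
    filter_upwards [hWb] with x hx
    rw [Real.norm_eq_abs, Real.norm_eq_abs]
    exact hx.trans (le_abs_self _)
  have key : ∀ u : R3 → ℝ, MemLp u 2 (volume : Measure R3) →
      ∫ x, u x * W x = ∫ x, u x * w x := by
    intro u hu
    have t1 : Tendsto (fun F : Finset ι => ∫ x, u x * ∑ j ∈ F, c j * h j x) atTop
        (𝓝 (∫ x, u x * W x)) := by
      refine tendsto_integral_filter_of_dominated_convergence
        (fun x => |u x| * (Real.sqrt S * Real.sqrt (ρ x)))
        (Eventually.of_forall fun F => hu.1.mul (hFm F)) (Eventually.of_forall fun F => ?_) ?_ ?_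
      · filter_upwards [hbd] with x hx
        rw [norm_mul, Real.norm_eq_abs, Real.norm_eq_abs]
        exact mul_le_mul_of_nonneg_left (hx F) (abs_nonneg _)
      · exact hu.norm.integrable_mul (hs.const_mul _)
      · filter_upwards [hWt] with x hx using hx.const_mul _
    have t2 := hsum u hu
    refine tendsto_nhds_unique t1 (Tendsto.congr (fun F => ?_) t2)
    have : ∀ x, u x * ∑ j ∈ F, c j * h j x = ∑ j ∈ F, c j * (u x * h j x) := fun x => by
      rw [Finset.mul_sum]; exact Finset.sum_congr rfl fun j _ => by ring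
    simp only [this]
    have hi : ∀ j, Integrable (fun x => c j * (u x * h j x)) (volume : Measure R3) := fun j =>
      (hu.integrable_mul (hm j)).const_mul _
    rw [integral_finsetSum _ fun j _ => hi j]
    exact Finset.sum_congr rfl fun j _ => (integral_const_mul _ _).symm
  have hz : ∫ x, (W x - w x) ^ 2 = 0 := by
    have hd : MemLp (fun x => W x - w x) 2 (volume : Measure R3) := hWL.sub hw
    have e := key _ hd
    have i1 : Integrable (fun x => (W x - w x) * W x) (volume : Measure R3) :=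
      hd.integrable_mul hWL
    have i2 : Integrable (fun x => (W x - w x) * w x) (volume : Measure R3) :=
      hd.integrable_mul hw
    have : ∫ x, (W x - w x) ^ 2 = ∫ x, ((W x - w x) * W x - (W x - w x) * w x) :=
      integral_congr_ae (Eventually.of_forall fun x => by ring)
    rw [this, integral_sub i1 i2, e, sub_self]
  have hd2 : Integrable (fun x => (W x - w x) ^ 2) (volume : Measure R3) :=
    (hWL.sub hw).integrable_sq
  have := (integral_eq_zero_iff_of_nonneg (fun x => sq_nonneg _) hd2).1 hz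
  filter_upwards [this, hsm] with x h1 h2
  have h3 : W x = w x := by
    have : (W x - w x) ^ 2 = 0 := h1
    nlinarith [sq_eq_zero_iff.1 this]
  rw [← h3]
  exact h2.hasSum

end Dens

/-! ### weak derivatives of the regularised norm -/

section Norm

variable {E : Type*} [NormedAddCommGroup E] [NormedSpace ℝ E] [FiniteDimensional ℝ E]
  [MeasurableSpace E] [BorelSpace E]
variable {μ : Measure E} [μ.IsAddHaarMeasure] {v : E}

theorem isWD_finsetSum {G : Type*} [NormedAddCommGroup G] [NormedSpace ℝ G] {κ : Type*}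
    (s : Finset κ) {f g : κ → E → G} (h : ∀ j ∈ s, IsWD μ v (f j) (g j))
    (hf : ∀ j ∈ s, LocallyIntegrable (f j) μ) (hg : ∀ j ∈ s, LocallyIntegrable (g j) μ) :
    IsWD μ v (fun x => ∑ j ∈ s, f j x) (fun x => ∑ j ∈ s, g j x) := by
  intro φ hφ
  simp only [Finset.smul_sum]
  rw [integral_finsetSum _ fun j hj => (hφ.fderiv v).integrable_smul (hf j hj),
    integral_finsetSum _ fun j hj => hφ.integrable_smul (hg j hj), ← Finset.sum_neg_distrib]
  exact Finset.sum_congr rfl fun j hj => h j hj φ hφ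

theorem isWD_toLp {κ : Type*} [Fintype κ] {f g : κ → E → ℝ} (h : ∀ j, IsWD μ v (f j) (g j))
    (hf : ∀ j, LocallyIntegrable (f j) μ) (hg : ∀ j, LocallyIntegrable (g j) μ) :
    IsWD μ v (fun x => (WithLp.toLp 2 fun j => f j x : EuclideanSpace ℝ κ))
      (fun x => (WithLp.toLp 2 fun j => g j x : EuclideanSpace ℝ κ)) ∧
    LocallyIntegrable (fun x => (WithLp.toLp 2 fun j => f j x : EuclideanSpace ℝ κ)) μ ∧
    LocallyIntegrable (fun x => (WithLp.toLp 2 fun j => g j x : EuclideanSpace ℝ κ)) μ := by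
  classical
  have e : ∀ a : κ → E → ℝ, (fun x => (WithLp.toLp 2 fun j => a j x : EuclideanSpace ℝ κ)) =
      fun x => ∑ j, a j x • EuclideanSpace.single j (1 : ℝ) := by
    intro a; ext x j
    simp [Finset.sum_apply, Pi.single_apply]
  have hl : ∀ a : κ → E → ℝ, (∀ j, LocallyIntegrable (a j) μ) →
      LocallyIntegrable (fun x => ∑ j, a j x • (EuclideanSpace.single j (1 : ℝ) :
        EuclideanSpace ℝ κ)) μ := by
    intro a ha
    refine locallyIntegrable_finsetSum _ fun j _ => ?_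
    intro x
    obtain ⟨U, hU, hi⟩ := ha j x
    exact ⟨U, hU, hi.smul_const _⟩
  rw [e f, e g]
  refine ⟨?_, hl f hf, hl g hg⟩
  have hl1 : ∀ a : κ → E → ℝ, (∀ j, LocallyIntegrable (a j) μ) → ∀ j,
      LocallyIntegrable (fun x => a j x • (EuclideanSpace.single j (1 : ℝ) :
        EuclideanSpace ℝ κ)) μ := by
    intro a ha j x
    obtain ⟨U, hU, hi⟩ := ha j x
    exact ⟨U, hU, hi.smul_const _⟩
  refine isWD_finsetSum _ (fun j _ => ?_) (fun j _ => hl1 f hf j) fun j _ => hl1 g hg j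
  intro φ hφ
  simp only [smul_smul]
  rw [integral_smul_const, integral_smul_const, ← neg_smul]
  congr 1
  exact h j φ hφ

theorem sqrt_wd {κ : Type*} [Fintype κ] {f g : κ → E → ℝ} (h : ∀ j, IsWD μ v (f j) (g j))
    (hf : ∀ j, LocallyIntegrable (f j) μ) (hg : ∀ j, LocallyIntegrable (g j) μ) {ε : ℝ}
    (hε : 0 < ε) :
    IsWD μ v (fun x => Real.sqrt (∑ j, f j x ^ 2 + ε ^ 2))
      (fun x => (∑ j, f j x * g j x) / Real.sqrt (∑ j, f j x ^ 2 + ε ^ 2)) := by
  obtain ⟨h1, h2, h3⟩ := isWD_toLp h hf hg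
  have := h1.sqrt_norm_sq h2 h3 ε hε
  simp only [EuclideanSpace.norm_sq_eq, Real.norm_eq_abs, sq_abs] at this
  have e : ∀ x, inner ℝ (WithLp.toLp 2 fun j => f j x : EuclideanSpace ℝ κ)
      (WithLp.toLp 2 fun j => g j x : EuclideanSpace ℝ κ) = ∑ j, f j x * g j x := by
    intro x
    simp [PiLp.inner_apply, mul_comm]
  simpa only [e] using this

theorem div_wd {κ : Type*} [Fintype κ] {f g : κ → E → ℝ} (h : ∀ j, IsWD μ v (f j) (g j))
    (hf : ∀ j, LocallyIntegrable (f j) μ) (hg : ∀ j, LocallyIntegrable (g j) μ) {ε : ℝ}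
    (hε : 0 < ε) (j : κ) :
    IsWD μ v (fun x => f j x / Real.sqrt (∑ j, f j x ^ 2 + ε ^ 2))
      (fun x => g j x / Real.sqrt (∑ j, f j x ^ 2 + ε ^ 2) -
        f j x * (∑ j, f j x * g j x) / Real.sqrt (∑ j, f j x ^ 2 + ε ^ 2) ^ 3) := by
  obtain ⟨h1, h2, h3⟩ := isWD_toLp h hf hg
  have hpos : ∀ y : EuclideanSpace ℝ κ, 0 < ‖y‖ ^ 2 + ε ^ 2 := fun y => by positivity
  set S : EuclideanSpace ℝ κ → ℝ := fun y => Real.sqrt (‖y‖ ^ 2 + ε ^ 2) with hS
  have hS0 : ∀ y, 0 < S y := fun y => Real.sqrt_pos.2 (hpos y)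
  have hSs : ∀ y, S y ^ 2 = ‖y‖ ^ 2 + ε ^ 2 := fun y => Real.sq_sqrt (hpos y).le
  set Φ : EuclideanSpace ℝ κ → ℝ := fun y => y j * (S y)⁻¹ with hΦ
  have hcS : ContDiff ℝ 1 S := by
    refine ContDiff.sqrt ?_ fun y => (hpos y).ne'
    exact (contDiff_norm_sq ℝ).add contDiff_const
  have hcd : ContDiff ℝ 1 Φ := by
    refine ContDiff.mul ?_ (hcS.inv fun y => (hS0 y).ne')
    exact (EuclideanSpace.proj (𝕜 := ℝ) j).contDiff
  have hfd : ∀ y w : EuclideanSpace ℝ κ, fderiv ℝ Φ y w =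
      w j / S y - y j * inner ℝ y w / S y ^ 3 := by
    intro y w
    have d1 : HasFDerivAt (fun y : EuclideanSpace ℝ κ => ‖y‖ ^ 2 + ε ^ 2) (2 • (innerSL ℝ y)) y :=
      (hasStrictFDerivAt_norm_sq y).hasFDerivAt.add_const _
    have d2 := d1.sqrt (hpos y).ne'
    have d3 : HasFDerivAt (fun y : EuclideanSpace ℝ κ => y j) (EuclideanSpace.proj (𝕜 := ℝ) j) y :=
      (EuclideanSpace.proj (𝕜 := ℝ) j).hasFDerivAt
    have d4 := (hasDerivAt_inv (hS0 y).ne').comp_hasFDerivAt y d2
    have d5 := d3.mul d4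
    have d6 : fderiv ℝ Φ y = _ := d5.fderiv
    rw [d6]
    have hne := (hS0 y).ne'
    simp only [add_apply, smul_apply, innerSL_apply_apply,
      smul_eq_mul, nsmul_eq_mul, Nat.cast_ofNat, Function.comp_apply]
    change y j * (-(S y ^ 2)⁻¹ * (1 / (2 * S y) * (2 * inner ℝ y w))) + (S y)⁻¹ * w j = _
    field_simp
    ring
  have hb : ∀ y, ‖fderiv ℝ Φ y‖ ≤ 2 / ε := by
    intro y
    refine ContinuousLinearMap.opNorm_le_bound _ (by positivity) fun w => ?_
    have hSε : ε ≤ S y := Real.le_sqrt_of_sq_le (by nlinarith [sq_nonneg ‖y‖])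
    have hSy : ‖y‖ ≤ S y := Real.le_sqrt_of_sq_le (by nlinarith [sq_nonneg ε])
    have hw : |w j| ≤ ‖w‖ := by simpa using PiLp.norm_apply_le w j
    have hy : |y j| ≤ ‖y‖ := by simpa using PiLp.norm_apply_le y j
    have hin : |inner ℝ y w| ≤ ‖y‖ * ‖w‖ := by
      simpa using norm_inner_le_norm (𝕜 := ℝ) y w
    have b1 : |w j / S y| ≤ ‖w‖ / ε := by
      rw [abs_div, abs_of_pos (hS0 y)]
      exact div_le_div₀ (norm_nonneg _) hw hε hSε
    have b2 : |y j * inner ℝ y w / S y ^ 3| ≤ ‖w‖ / ε := by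
      rw [abs_div, abs_of_pos (pow_pos (hS0 y) 3), abs_mul, div_le_div_iff₀ (pow_pos (hS0 y) 3) hε]
      calc |y j| * |inner ℝ y w| * ε ≤ S y * (S y * ‖w‖) * S y := by
            refine mul_le_mul (mul_le_mul (hy.trans hSy) (hin.trans ?_) (abs_nonneg _) (hS0 y).le)
              hSε hε.le ?_
            · exact mul_le_mul_of_nonneg_right hSy (norm_nonneg _)
            · have := (hS0 y).le; have := norm_nonneg w; positivity
        _ = ‖w‖ * S y ^ 3 := by ring
    rw [hfd, Real.norm_eq_abs]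
    refine (abs_sub _ _).trans ?_
    calc _ ≤ ‖w‖ / ε + ‖w‖ / ε := add_le_add b1 b2
      _ = 2 / ε * ‖w‖ := by ring
  have key := h1.comp_contDiff h2 h3 hcd _ hb
  simp only [hfd] at key
  simp only [hΦ, hS, EuclideanSpace.norm_sq_eq, Real.norm_eq_abs, sq_abs] at key
  have e : ∀ x, inner ℝ (WithLp.toLp 2 fun j => f j x : EuclideanSpace ℝ κ)
      (WithLp.toLp 2 fun j => g j x : EuclideanSpace ℝ κ) = ∑ j, f j x * g j x := by
    intro x
    simp [PiLp.inner_apply, mul_comm]
  simpa only [e, div_eq_mul_inv] using key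

end Norm

/-! ### partial sums -/

section Part

variable {ι : Type*} {h : ι → R3 → ℝ} {g : ι → Fin 3 → R3 → ℝ} {F : Finset ι} {ε : ℝ}

/-- partial density -/
def Pp (h : ι → R3 → ℝ) (F : Finset ι) (x : R3) : ℝ := ∑ j ∈ F, h j x ^ 2

/-- regularised square root of the partial density -/
def Sp (h : ι → R3 → ℝ) (F : Finset ι) (ε : ℝ) (x : R3) : ℝ := Real.sqrt (Pp h F x + ε ^ 2)

/-- half the gradient of the partial density -/
def Tp (h : ι → R3 → ℝ) (g : ι → Fin 3 → R3 → ℝ) (F : Finset ι) (k : Fin 3) (x : R3) : ℝ :=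
  ∑ j ∈ F, h j x * g j k x

theorem Pp_nonneg (x : R3) : 0 ≤ Pp h F x := Finset.sum_nonneg fun j _ => sq_nonneg _

theorem Sp_sq (x : R3) : Sp h F ε x ^ 2 = Pp h F x + ε ^ 2 :=
  Real.sq_sqrt (add_nonneg (Pp_nonneg x) (sq_nonneg _))

theorem Sp_pos (hε : 0 < ε) (x : R3) : 0 < Sp h F ε x :=
  Real.sqrt_pos.2 (by have := Pp_nonneg (h := h) (F := F) x; positivity)

theorem le_Sp (hε : 0 < ε) (x : R3) : ε ≤ Sp h F ε x :=
  Real.le_sqrt_of_sq_le (by have := Pp_nonneg (h := h) (F := F) x; linarith)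

theorem abs_le_Sp {j : ι} (hj : j ∈ F) (x : R3) : |h j x| ≤ Sp h F ε x := by
  refine Real.le_sqrt_of_sq_le ?_
  have : h j x ^ 2 ≤ Pp h F x := Finset.single_le_sum (f := fun j => h j x ^ 2)
    (fun j _ => sq_nonneg _) hj
  rw [sq_abs]
  nlinarith [sq_nonneg ε]

theorem sqrt_Pp_le_Sp (x : R3) : Real.sqrt (Pp h F x) ≤ Sp h F ε x :=
  Real.sqrt_le_sqrt (by nlinarith [sq_nonneg ε])

/-- `T² ≤ S² ∑ g²` -/
theorem Tp_sq_le (k : Fin 3) (x : R3) :
    Tp h g F k x ^ 2 ≤ Sp h F ε x ^ 2 * ∑ j ∈ F, g j k x ^ 2 := by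
  refine (Finset.sum_mul_sq_le_sq_mul_sq F _ _).trans ?_
  refine mul_le_mul_of_nonneg_right ?_ (Finset.sum_nonneg fun j _ => sq_nonneg _)
  rw [Sp_sq]
  change Pp h F x ≤ _
  nlinarith [sq_nonneg ε]

theorem Pp_meas (hf : ∀ j, AEStronglyMeasurable (h j) (volume : Measure R3)) :
    AEStronglyMeasurable (Pp h F) (volume : Measure R3) :=
  Finset.aestronglyMeasurable_fun_sum _ fun j _ => (hf j).pow 2

theorem Sp_meas (hf : ∀ j, AEStronglyMeasurable (h j) (volume : Measure R3)) :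
    AEStronglyMeasurable (Sp h F ε) (volume : Measure R3) :=
  Real.continuous_sqrt.comp_aestronglyMeasurable ((Pp_meas hf).add_const _)

theorem Tp_meas (hf : ∀ j, AEStronglyMeasurable (h j) (volume : Measure R3))
    (hg : ∀ j k, AEStronglyMeasurable (g j k) (volume : Measure R3)) (k : Fin 3) :
    AEStronglyMeasurable (Tp h g F k) (volume : Measure R3) :=
  Finset.aestronglyMeasurable_fun_sum _ fun j _ => (hf j).mul (hg j k)

theorem Sp_wd (hf : ∀ j, H1 (h j) (g j)) (hε : 0 < ε) (k : Fin 3) :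
    IsWD (volume : Measure R3) (dir k) (Sp h F ε) (fun x => Tp h g F k x / Sp h F ε x) := by
  have := sqrt_wd (κ := F) (f := fun j => h j) (g := fun j => g j k) (v := dir k)
    (μ := (volume : Measure R3)) (fun j => (hf j).wd k)
    (fun j => (hf j).locInt) (fun j => (hf j).glocInt k) hε
  have e1 : ∀ x, ∑ j : F, h j x ^ 2 = Pp h F x := fun x =>
    Finset.sum_coe_sort F (fun j => h j x ^ 2)
  have e2 : ∀ x, ∑ j : F, h j x * g j k x = Tp h g F k x := fun x =>
    Finset.sum_coe_sort F (fun j => h j x * g j k x)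
  simp only [e1, e2] at this
  exact this

theorem quot_wd (hf : ∀ j, H1 (h j) (g j)) (hε : 0 < ε) {j : ι} (hj : j ∈ F) (k : Fin 3) :
    IsWD (volume : Measure R3) (dir k) (fun x => h j x / Sp h F ε x)
      (fun x => g j k x / Sp h F ε x - h j x * Tp h g F k x / Sp h F ε x ^ 3) := by
  have := div_wd (κ := F) (f := fun j => h j) (g := fun j => g j k) (v := dir k)
    (μ := (volume : Measure R3)) (fun j => (hf j).wd k)
    (fun j => (hf j).locInt) (fun j => (hf j).glocInt k) hε ⟨j, hj⟩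
  have e1 : ∀ x, ∑ j : F, h j x ^ 2 = Pp h F x := fun x =>
    Finset.sum_coe_sort F (fun j => h j x ^ 2)
  have e2 : ∀ x, ∑ j : F, h j x * g j k x = Tp h g F k x := fun x =>
    Finset.sum_coe_sort F (fun j => h j x * g j k x)
  simp only [e1, e2] at this
  exact this

theorem quot_H1 (hf : ∀ j, H1 (h j) (g j)) (hε : 0 < ε) {j : ι} (hj : j ∈ F) :
    H1 (fun x => h j x / Sp h F ε x)
      (fun k x => g j k x / Sp h F ε x - h j x * Tp h g F k x / Sp h F ε x ^ 3) := by
  have hm : ∀ j, AEStronglyMeasurable (h j) (volume : Measure R3) := fun j => (hf j).mem.1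
  have hSm : AEStronglyMeasurable (fun x => (Sp h F ε x)⁻¹) (volume : Measure R3) :=
    ((Sp_meas hm).aemeasurable.inv).aestronglyMeasurable
  have hSb : ∀ᵐ x, |(Sp h F ε x)⁻¹| ≤ ε⁻¹ := Eventually.of_forall fun x => by
    rw [abs_inv, abs_of_pos (Sp_pos hε x)]
    exact inv_anti₀ hε (le_Sp hε x)
  refine ⟨?_, fun k => ?_, fun k => quot_wd hf hε hj k⟩
  · have := memLp_bdd_mul (hf j).mem hSm hSb
    simpa [div_eq_mul_inv, mul_comm] using this
  · have m1 : MemLp (fun x => g j k x / Sp h F ε x) 2 (volume : Measure R3) := by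
      have := memLp_bdd_mul ((hf j).gmem k) hSm hSb
      simpa [div_eq_mul_inv, mul_comm] using this
    have m2 : MemLp (fun x => h j x * Tp h g F k x / Sp h F ε x ^ 3) 2
        (volume : Measure R3) := by
      have e : (fun x => h j x * Tp h g F k x / Sp h F ε x ^ 3) =
          fun x => ∑ l ∈ F, (h j x * h l x * (Sp h F ε x)⁻¹ ^ 3) * g l k x := by
        ext x
        rw [Tp, div_eq_mul_inv, Finset.mul_sum, Finset.sum_mul]
        exact Finset.sum_congr rfl fun l _ => by rw [inv_pow]; ring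
      rw [e]
      refine memLp_finsetSum _ fun l hl => ?_
      refine memLp_bdd_mul ((hf l).gmem k) (((hm j).mul (hm l)).mul (hSm.pow 3)) (C := ε⁻¹)
        (Eventually.of_forall fun x => ?_)
      have h1 := abs_le_Sp (h := h) (ε := ε) hj x
      have h2 := abs_le_Sp (h := h) (ε := ε) hl x
      have h3 := Sp_pos (h := h) (F := F) hε x
      have h4 := le_Sp (h := h) (F := F) hε x
      rw [abs_mul, abs_mul, abs_of_pos (pow_pos (inv_pos.2 h3) 3)]
      calc |h j x| * |h l x| * (Sp h F ε x)⁻¹ ^ 3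
          ≤ Sp h F ε x * Sp h F ε x * (Sp h F ε x)⁻¹ ^ 3 := by gcongr
        _ = (Sp h F ε x)⁻¹ := by field_simp
        _ ≤ ε⁻¹ := inv_anti₀ hε h4
    exact m1.sub m2

end Part

/-! ### limits -/

section Lim

variable {ι : Type*} {h : ι → R3 → ℝ} {g : ι → Fin 3 → R3 → ℝ} {ρ : R3 → ℝ}

/-- a countable family of `H¹` functions with `∑ hⱼ² = ρ` and finite kinetic energy. -/
structure Fam (ρ : R3 → ℝ) (h : ι → R3 → ℝ) (g : ι → Fin 3 → R3 → ℝ) : Prop where
  h1 : ∀ j, H1 (h j) (g j)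
  dens : ∀ᵐ x, HasSum (fun j => h j x ^ 2) (ρ x)
  dens_int : Integrable ρ (volume : Measure R3)
  kin : Summable (fun j => ∫ x, ∑ k, g j k x ^ 2)

/-- `∑ⱼ (∂ₖ hⱼ)²` -/
def gsq (g : ι → Fin 3 → R3 → ℝ) (k : Fin 3) (x : R3) : ℝ := ∑' j, g j k x ^ 2

/-- `∑ⱼ hⱼ ∂ₖ hⱼ` -/
def tk (h : ι → R3 → ℝ) (g : ι → Fin 3 → R3 → ℝ) (k : Fin 3) (x : R3) : ℝ :=
  ∑' j, h j x * g j k x

/-- gradient of `√ρ` -/
def gs (ρ : R3 → ℝ) (h : ι → R3 → ℝ) (g : ι → Fin 3 → R3 → ℝ) (k : Fin 3) (x : R3) : ℝ :=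
  tk h g k x / Real.sqrt (ρ x)

/-- regularisation parameter -/
def ep (m : ℕ) : ℝ := 1 / ((m : ℝ) + 1)

theorem ep_pos (m : ℕ) : 0 < ep m := by unfold ep; positivity

theorem ep_le_one (m : ℕ) : ep m ≤ 1 := by
  unfold ep
  rw [div_le_one (by positivity)]
  have : (0 : ℝ) ≤ m := Nat.cast_nonneg m
  linarith

/-- the filter of the double limit -/
abbrev LL (ι : Type*) : Filter (Finset ι × ℕ) := (atTop : Filter (Finset ι)) ×ˢ (atTop : Filter ℕ)

theorem tendsto_ep : Tendsto (fun p : Finset ι × ℕ => ep p.2) (LL ι) (𝓝 0) :=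
  (tendsto_one_div_add_atTop_nhds_zero_nat (𝕜 := ℝ)).comp tendsto_snd

/-- pointwise facts -/
structure Pt (ρ : R3 → ℝ) (h : ι → R3 → ℝ) (g : ι → Fin 3 → R3 → ℝ) (x : R3) : Prop where
  dens : HasSum (fun j => h j x ^ 2) (ρ x)
  gsm : ∀ k, Summable fun j => g j k x ^ 2

theorem Fam.gsq_facts [Countable ι] (A : Fam ρ h g) (k : Fin 3) :
    (∀ᵐ x, Summable fun j => g j k x ^ 2) ∧ Integrable (gsq g k) (volume : Measure R3) := by
  have hi : ∀ j k, Integrable (fun x => g j k x ^ 2) (volume : Measure R3) := fun j k =>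
    ((A.h1 j).gmem k).integrable_sq
  refine summable_ae_of_integral (fun j => hi j k) (fun j x => sq_nonneg _) ?_
  refine Summable.of_nonneg_of_le (fun j => integral_nonneg fun x => sq_nonneg _) (fun j => ?_)
    A.kin
  refine integral_mono (hi j k) (integrable_finsetSum _ fun k _ => hi j k) fun x => ?_
  exact Finset.single_le_sum (f := fun k => g j k x ^ 2) (fun k _ => sq_nonneg _)
    (Finset.mem_univ k)

theorem Fam.ae_pt [Countable ι] (A : Fam ρ h g) : ∀ᵐ x, Pt ρ h g x := by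
  filter_upwards [A.dens, ae_all_iff.2 fun k => (A.gsq_facts k).1] with x h1 h2
  exact ⟨h1, h2⟩

variable {x : R3}

theorem Pt.nonneg (p : Pt ρ h g x) : 0 ≤ ρ x := p.dens.nonneg fun j => sq_nonneg _

theorem Pt.P_le (p : Pt ρ h g x) (F : Finset ι) : Pp h F x ≤ ρ x :=
  sum_le_hasSum F (fun j _ => sq_nonneg _) p.dens

theorem Pt.P_tendsto (p : Pt ρ h g x) :
    Tendsto (fun q : Finset ι × ℕ => Pp h q.1 x) (LL ι) (𝓝 (ρ x)) :=
  Tendsto.comp (f := Prod.fst) (show Tendsto (fun F : Finset ι => Pp h F x) atTop (𝓝 (ρ x)) from p.dens) tendsto_fst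

theorem Pt.S_tendsto (p : Pt ρ h g x) :
    Tendsto (fun q : Finset ι × ℕ => Sp h q.1 (ep q.2) x) (LL ι) (𝓝 (Real.sqrt (ρ x))) := by
  have := (p.P_tendsto.add (tendsto_ep.pow 2)).sqrt
  simpa [Sp] using this

theorem Pt.S_le (p : Pt ρ h g x) (F : Finset ι) (m : ℕ) :
    Sp h F (ep m) x ≤ Real.sqrt (ρ x) + 1 := by
  have h1 := p.P_le F
  have h2 := ep_pos m
  have h3 := ep_le_one m
  have h4 := Real.sqrt_nonneg (ρ x)
  have h5 := Real.sq_sqrt p.nonneg
  refine Real.sqrt_le_iff.2 ⟨by linarith, ?_⟩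
  nlinarith

theorem Pt.T_tendsto (p : Pt ρ h g x) (k : Fin 3) :
    Tendsto (fun q : Finset ι × ℕ => Tp h g q.1 k x) (LL ι) (𝓝 (tk h g k x)) := by
  have : Tendsto (fun F : Finset ι => Tp h g F k x) atTop (𝓝 (tk h g k x)) :=
    (summable_mul_of_sq p.dens.summable (p.gsm k)).hasSum
  exact this.comp tendsto_fst

theorem Pt.D_abs_le (p : Pt ρ h g x) (k : Fin 3) (F : Finset ι) {ε : ℝ} (hε : 0 < ε) :
    |Tp h g F k x / Sp h F ε x| ≤ Real.sqrt (gsq g k x) := by
  have h1 := Tp_sq_le (h := h) (g := g) (F := F) (ε := ε) k x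
  have h2 : ∑ j ∈ F, g j k x ^ 2 ≤ gsq g k x :=
    (p.gsm k).sum_le_tsum F fun j _ => sq_nonneg _
  have h3 := Sp_pos (h := h) (F := F) hε x
  have h4 := Sp_sq (h := h) (F := F) (ε := ε) x
  refine Real.le_sqrt_of_sq_le ?_
  rw [sq_abs, div_pow, div_le_iff₀ (pow_pos h3 2)]
  calc _ ≤ _ := h1
    _ ≤ Sp h F ε x ^ 2 * gsq g k x := mul_le_mul_of_nonneg_left h2 (sq_nonneg _)
    _ = _ := mul_comm _ _

theorem Pt.D_tendsto (p : Pt ρ h g x) (k : Fin 3) :
    Tendsto (fun q : Finset ι × ℕ => Tp h g q.1 k x / Sp h q.1 (ep q.2) x) (LL ι)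
      (𝓝 (gs ρ h g k x)) := by
  rcases eq_or_lt_of_le p.nonneg with h0 | h0
  · have hz : ∀ j, h j x = 0 := by
      intro j
      have h1 : h j x ^ 2 ≤ ρ x := le_hasSum p.dens j fun i _ => sq_nonneg _
      rw [← h0] at h1
      nlinarith [sq_nonneg (h j x)]
    have e1 : ∀ F, Tp h g F k x = 0 := fun F => Finset.sum_eq_zero fun j _ => by rw [hz j]; ring
    have e2 : tk h g k x = 0 := by
      rw [tk]; simp [hz]
    simp only [e1, zero_div, gs, e2]
    exact tendsto_const_nhds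
  · exact (p.T_tendsto k).div p.S_tendsto (Real.sqrt_pos.2 h0).ne'

variable [Countable ι]

theorem tk_meas (A : Fam ρ h g) (k : Fin 3) :
    AEStronglyMeasurable (tk h g k) (volume : Measure R3) := by
  refine aestronglyMeasurable_of_tendsto_ae (LL ι) (f := fun q => Tp h g q.1 k)
    (fun q => Tp_meas (fun j => (A.h1 j).mem.1) (fun j k => ((A.h1 j).gmem k).1) k) ?_
  filter_upwards [A.ae_pt] with x p using p.T_tendsto k

omit [Countable ι] in
theorem sqrtρ_meas (A : Fam ρ h g) :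
    AEStronglyMeasurable (fun x => Real.sqrt (ρ x)) (volume : Measure R3) :=
  Real.continuous_sqrt.comp_aestronglyMeasurable A.dens_int.1

theorem gs_meas (A : Fam ρ h g) (k : Fin 3) :
    AEStronglyMeasurable (gs ρ h g k) (volume : Measure R3) :=
  ((tk_meas A k).aemeasurable.div (sqrtρ_meas A).aemeasurable).aestronglyMeasurable

theorem gsq_sqrt_memLp (A : Fam ρ h g) (k : Fin 3) :
    MemLp (fun x => Real.sqrt (gsq g k x)) 2 (volume : Measure R3) :=
  sqrt_memLp (A.gsq_facts k).2 (Eventually.of_forall fun x => tsum_nonneg fun j => sq_nonneg _)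

theorem gs_abs_le (A : Fam ρ h g) (k : Fin 3) :
    ∀ᵐ x, |gs ρ h g k x| ≤ Real.sqrt (gsq g k x) := by
  filter_upwards [A.ae_pt] with x p
  exact le_of_tendsto (p.D_tendsto k).abs (Eventually.of_forall fun q =>
    p.D_abs_le k q.1 (ep_pos q.2))

/-- `√ρ ∈ H¹`. -/
theorem sqrt_H1 (A : Fam ρ h g) : H1 (fun x => Real.sqrt (ρ x)) (gs ρ h g) := by
  have hρ0 : ∀ᵐ x, 0 ≤ ρ x := by filter_upwards [A.ae_pt] with x p using p.nonneg
  have hs := sqrt_memLp A.dens_int hρ0
  have hhm : ∀ j, AEStronglyMeasurable (h j) (volume : Measure R3) := fun j => (A.h1 j).mem.1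
  have hgm : ∀ j k, AEStronglyMeasurable (g j k) (volume : Measure R3) := fun j k =>
    ((A.h1 j).gmem k).1
  refine ⟨hs, fun k => ?_, fun k => ?_⟩
  · refine (gsq_sqrt_memLp A k).of_le (gs_meas A k) ?_
    filter_upwards [gs_abs_le A k] with x hx
    rw [Real.norm_eq_abs, Real.norm_eq_abs]
    exact hx.trans (le_abs_self _)
  · intro φ hφ
    have t1 : Tendsto (fun q : Finset ι × ℕ =>
        ∫ x, (fderiv ℝ φ x (dir k)) • Sp h q.1 (ep q.2) x) (LL ι)
        (𝓝 (∫ x, (fderiv ℝ φ x (dir k)) • Real.sqrt (ρ x))) := by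
      refine tendsto_integral_filter_of_dominated_convergence
        (fun x => |fderiv ℝ φ x (dir k)| * (Real.sqrt (ρ x) + 1))
        (Eventually.of_forall fun q => (hφ.fderiv (dir k)).continuous.aestronglyMeasurable.smul
          (Sp_meas hhm)) (Eventually.of_forall fun q => ?_) ?_ ?_
      · filter_upwards [A.ae_pt] with x p
        rw [norm_smul, Real.norm_eq_abs, Real.norm_eq_abs,
          abs_of_pos (Sp_pos (h := h) (F := q.1) (ep_pos q.2) x)]
        exact mul_le_mul_of_nonneg_left (p.S_le q.1 q.2) (abs_nonneg _)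
      · have i1 : Integrable (fun x => (fderiv ℝ φ x (dir k)) • (Real.sqrt (ρ x) + 1))
            (volume : Measure R3) :=
          (hφ.fderiv (dir k)).integrable_smul
            ((hs.locallyIntegrable (by norm_num)).add (locallyIntegrable_const 1))
        refine i1.norm.congr (Eventually.of_forall fun x => ?_)
        simp only [norm_smul, Real.norm_eq_abs]
        rw [abs_of_nonneg (add_nonneg (Real.sqrt_nonneg (ρ x)) zero_le_one)]
      · filter_upwards [A.ae_pt] with x p using p.S_tendsto.const_smul (fderiv ℝ φ x (dir k))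
    have t2 : Tendsto (fun q : Finset ι × ℕ =>
        ∫ x, φ x • (Tp h g q.1 k x / Sp h q.1 (ep q.2) x)) (LL ι)
        (𝓝 (∫ x, φ x • gs ρ h g k x)) := by
      refine tendsto_integral_filter_of_dominated_convergence
        (fun x => |φ x| * Real.sqrt (gsq g k x))
        (Eventually.of_forall fun q => hφ.continuous.aestronglyMeasurable.smul
          ((Tp_meas hhm hgm k).aemeasurable.div (Sp_meas hhm).aemeasurable).aestronglyMeasurable)
        (Eventually.of_forall fun q => ?_) ?_ ?_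
      · filter_upwards [A.ae_pt] with x p
        rw [norm_smul, Real.norm_eq_abs, Real.norm_eq_abs]
        exact mul_le_mul_of_nonneg_left (p.D_abs_le k q.1 (ep_pos q.2)) (abs_nonneg _)
      · have i1 := (hφ.integrable_smul ((gsq_sqrt_memLp A k).locallyIntegrable (by norm_num))).norm
        refine i1.congr (Eventually.of_forall fun x => ?_)
        simp only [norm_smul, Real.norm_eq_abs]
        rw [abs_of_nonneg (Real.sqrt_nonneg (gsq g k x))]
      · filter_upwards [A.ae_pt] with x p using (p.D_tendsto k).const_smul (φ x)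
    refine tendsto_nhds_unique t1 (t2.neg.congr fun q => ?_)
    exact (Sp_wd A.h1 (ep_pos q.2) k φ hφ).symm

end Lim

/-! ### the inequality for the partial sums -/

section Ineq

variable {ι : Type*} {h : ι → R3 → ℝ} {g : ι → Fin 3 → R3 → ℝ} {ρ : R3 → ℝ}
  {v φ η : R3 → ℝ} {gη : Fin 3 → R3 → ℝ} {c : ι → ℝ} {μ δ ε C : ℝ} {F : Finset ι}

theorem T_div_S_memLp (hf : ∀ j, H1 (h j) (g j)) (hε : 0 < ε) (k : Fin 3) :
    MemLp (fun x => Tp h g F k x / Sp h F ε x) 2 (volume : Measure R3) := by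
  have hm : ∀ j, AEStronglyMeasurable (h j) (volume : Measure R3) := fun j => (hf j).mem.1
  have hSm : AEStronglyMeasurable (fun x => (Sp h F ε x)⁻¹) (volume : Measure R3) :=
    ((Sp_meas hm).aemeasurable.inv).aestronglyMeasurable
  have e : (fun x => Tp h g F k x / Sp h F ε x) =
      fun x => ∑ l ∈ F, (h l x * (Sp h F ε x)⁻¹) * g l k x := by
    ext x
    rw [Tp, div_eq_mul_inv, Finset.sum_mul]
    exact Finset.sum_congr rfl fun l _ => by ring
  rw [e]
  refine memLp_finsetSum _ fun l hl => ?_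
  refine memLp_bdd_mul ((hf l).gmem k) ((hm l).mul hSm) (C := 1)
    (Eventually.of_forall fun x => ?_)
  have h2 := abs_le_Sp (h := h) (ε := ε) hl x
  have h3 := Sp_pos (h := h) (F := F) hε x
  rw [abs_mul, abs_of_pos (inv_pos.2 h3), ← div_eq_mul_inv]
  exact (div_le_one h3).2 h2

theorem ineq_part (hv : MemV v) (hf : ∀ j, H1 (h j) (g j))
    (hφm : MemLp φ 2 (volume : Measure R3))
    (heq : ∀ j f k, H1 f k → qf v μ (h j) (g j) f k = -δ * c j * ∫ x, φ x * f x)
    (hη : H1 η gη) (h0 : ∀ᵐ x, 0 ≤ η x) (hC : ∀ᵐ x, |η x| ≤ C) (hε : 0 < ε) :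
    (1 / 2) * (∫ x, ∑ k, (Tp h g F k x / Sp h F ε x) * gη k x) +
      ∫ x, (v x - μ) * (Pp h F x / Sp h F ε x) * η x ≤
    -δ * ∫ x, φ x * η x * ((∑ j ∈ F, c j * h j x) / Sp h F ε x) := by
  have hm : ∀ j, AEStronglyMeasurable (h j) (volume : Measure R3) := fun j => (hf j).mem.1
  -- the test functions
  have hu : ∀ j ∈ F, H1 (fun x => η x * (h j x / Sp h F ε x))
      (fun k x => gη k x * (h j x / Sp h F ε x) + η x *
        (g j k x / Sp h F ε x - h j x * Tp h g F k x / Sp h F ε x ^ 3)) := by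
    intro j hj
    refine hη.mul_bdd (quot_H1 hf hε hj) (C := 1) (C' := C) (Eventually.of_forall fun x => ?_) ?_
    · rw [abs_div, abs_of_pos (Sp_pos hε x)]
      exact (div_le_one (Sp_pos hε x)).2 (abs_le_Sp hj x)
    · filter_upwards [hC] with x hx _ using hx
  have key : ∑ j ∈ F, qf v μ (h j) (g j) (fun x => η x * (h j x / Sp h F ε x))
      (fun k x => gη k x * (h j x / Sp h F ε x) + η x *
        (g j k x / Sp h F ε x - h j x * Tp h g F k x / Sp h F ε x ^ 3)) =
      -δ * ∫ x, φ x * η x * ((∑ j ∈ F, c j * h j x) / Sp h F ε x) := by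
    rw [Finset.sum_congr rfl fun j hj => heq j _ _ (hu j hj)]
    have hi : ∀ j ∈ F, Integrable (fun x => c j * (φ x * (η x * (h j x / Sp h F ε x))))
        (volume : Measure R3) := fun j hj => (hφm.integrable_mul (hu j hj).mem).const_mul _
    have e : ∀ x, φ x * η x * ((∑ j ∈ F, c j * h j x) / Sp h F ε x) =
        ∑ j ∈ F, c j * (φ x * (η x * (h j x / Sp h F ε x))) := by
      intro x
      rw [Finset.sum_div, Finset.mul_sum]
      exact Finset.sum_congr rfl fun j _ => by ring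
    simp only [e]
    rw [integral_finsetSum _ hi, Finset.mul_sum]
    refine Finset.sum_congr rfl fun j _ => ?_
    rw [integral_const_mul]
    ring
  rw [← key]
  unfold qf
  rw [Finset.sum_add_distrib, ← Finset.mul_sum]
  have i1 : ∀ j ∈ F, Integrable (fun x => ∑ k, g j k x * (gη k x * (h j x / Sp h F ε x) + η x *
        (g j k x / Sp h F ε x - h j x * Tp h g F k x / Sp h F ε x ^ 3)))
      (volume : Measure R3) := fun j hj => (hf j).integrable_dot (hu j hj)
  have i2 : ∀ j ∈ F, Integrable (fun x => (v x - μ) * h j x * (η x * (h j x / Sp h F ε x)))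
      (volume : Measure R3) := fun j hj => memV_integrable_sub_mul hv μ (hf j) (hu j hj)
  rw [← integral_finsetSum _ i1, ← integral_finsetSum _ i2]
  have e2 : ∀ x, (v x - μ) * (Pp h F x / Sp h F ε x) * η x =
      ∑ j ∈ F, (v x - μ) * h j x * (η x * (h j x / Sp h F ε x)) := by
    intro x
    rw [Pp, Finset.sum_div, Finset.mul_sum, Finset.sum_mul]
    exact Finset.sum_congr rfl fun j _ => by ring
  simp only [e2]
  refine add_le_add (mul_le_mul_of_nonneg_left ?_ (by norm_num)) le_rfl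
  refine integral_mono_ae ?_ (integrable_finsetSum _ i1) ?_
  · exact integrable_finsetSum _ fun k _ => (T_div_S_memLp hf hε k).integrable_mul (hη.gmem k)
  · filter_upwards [h0] with x hx
    have hS := Sp_pos (h := h) (F := F) hε x
    have hne := hS.ne'
    rw [Finset.sum_comm]
    refine Finset.sum_le_sum fun k _ => ?_
    have hT := Tp_sq_le (h := h) (g := g) (F := F) (ε := ε) k x
    have e3 : ∑ j ∈ F, g j k x * (gη k x * (h j x / Sp h F ε x) + η x *
        (g j k x / Sp h F ε x - h j x * Tp h g F k x / Sp h F ε x ^ 3)) =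
        Tp h g F k x / Sp h F ε x * gη k x + η x * ((∑ j ∈ F, g j k x ^ 2) / Sp h F ε x -
          Tp h g F k x ^ 2 / Sp h F ε x ^ 3) := by
      have e4 : Tp h g F k x ^ 2 / Sp h F ε x ^ 3 =
          (∑ j ∈ F, h j x * g j k x) * (Tp h g F k x / Sp h F ε x ^ 3) := by
        change _ = Tp h g F k x * _
        ring
      have e5 : Tp h g F k x / Sp h F ε x * gη k x =
          (∑ j ∈ F, h j x * g j k x) * (gη k x / Sp h F ε x) := by
        change _ = Tp h g F k x * _
        ring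
      rw [e4, e5, Finset.sum_mul, Finset.sum_mul, Finset.sum_div, ← Finset.sum_sub_distrib,
        Finset.mul_sum, ← Finset.sum_add_distrib]
      exact Finset.sum_congr rfl fun j _ => by ring
    rw [e3]
    have h5 : 0 ≤ (∑ j ∈ F, g j k x ^ 2) / Sp h F ε x - Tp h g F k x ^ 2 / Sp h F ε x ^ 3 := by
      rw [sub_nonneg, div_le_div_iff₀ (pow_pos hS 3) hS]
      calc Tp h g F k x ^ 2 * Sp h F ε x ≤
            (Sp h F ε x ^ 2 * ∑ j ∈ F, g j k x ^ 2) * Sp h F ε x :=
            mul_le_mul_of_nonneg_right hT hS.le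
        _ = (∑ j ∈ F, g j k x ^ 2) * Sp h F ε x ^ 3 := by ring
    nlinarith [mul_nonneg hx h5]

variable [Countable ι]

/-- the subsolution inequality for bounded test functions -/
theorem sub_bdd (hv : MemV v) (A : Fam ρ h g) (hδ : 0 ≤ δ)
    (hφm : MemLp φ 2 (volume : Measure R3)) (hφ : ∀ᵐ x, 0 < φ x)
    (hc : HasSum (fun j => c j ^ 2) 2)
    (heq : ∀ j f k, H1 f k → qf v μ (h j) (g j) f k = -δ * c j * ∫ x, φ x * f x)
    (hsum : ∀ᵐ x, HasSum (fun j => c j * h j x) (2 * φ x)) (hρ : ∀ᵐ x, 0 < ρ x)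
    (hη : H1 η gη) (h0 : ∀ᵐ x, 0 ≤ η x) (hC : ∀ᵐ x, |η x| ≤ C) :
    qf v μ (fun x => Real.sqrt (ρ x)) (gs ρ h g) η gη ≤ 0 := by
  have hs := sqrt_H1 A
  have hhm : ∀ j, AEStronglyMeasurable (h j) (volume : Measure R3) := fun j => (A.h1 j).mem.1
  have hgm : ∀ j k, AEStronglyMeasurable (g j k) (volume : Measure R3) := fun j k =>
    ((A.h1 j).gmem k).1
  have t1 : Tendsto (fun q : Finset ι × ℕ =>
      ∫ x, ∑ k, (Tp h g q.1 k x / Sp h q.1 (ep q.2) x) * gη k x) (LL ι)
      (𝓝 (∫ x, ∑ k, gs ρ h g k x * gη k x)) := by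
    refine tendsto_integral_filter_of_dominated_convergence
      (fun x => ∑ k, Real.sqrt (gsq g k x) * |gη k x|)
      (Eventually.of_forall fun q => ?_)
      (Eventually.of_forall fun q => ?_) ?_ ?_
    · exact Finset.aestronglyMeasurable_fun_sum _ fun k _ =>
        (T_div_S_memLp A.h1 (ep_pos q.2) k).1.mul (hη.gmem k).1
    · filter_upwards [A.ae_pt] with x p
      refine (norm_sum_le _ _).trans (Finset.sum_le_sum fun k _ => ?_)
      rw [norm_mul, Real.norm_eq_abs, Real.norm_eq_abs]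
      exact mul_le_mul_of_nonneg_right (p.D_abs_le k q.1 (ep_pos q.2)) (abs_nonneg _)
    · exact integrable_finsetSum _ fun k _ =>
        (gsq_sqrt_memLp A k).integrable_mul (hη.gmem k).norm
    · filter_upwards [A.ae_pt] with x p
      exact tendsto_finsetSum _ fun k _ => (p.D_tendsto k).mul_const _
  have t2 : Tendsto (fun q : Finset ι × ℕ =>
      ∫ x, (v x - μ) * (Pp h q.1 x / Sp h q.1 (ep q.2) x) * η x) (LL ι)
      (𝓝 (∫ x, (v x - μ) * Real.sqrt (ρ x) * η x)) := by
    have hvm : AEStronglyMeasurable v (volume : Measure R3) := by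
      obtain ⟨a, b, ha, hb, rfl⟩ := hv
      have ha' : MemLp a (3 / 2) (volume : Measure R3) := ha
      have hb' : MemLp b ⊤ (volume : Measure R3) := hb
      exact ha'.1.add hb'.1
    refine tendsto_integral_filter_of_dominated_convergence
      (fun x => ‖(v x - μ) * Real.sqrt (ρ x) * η x‖)
      (Eventually.of_forall fun q => ?_)
      (Eventually.of_forall fun q => ?_) (memV_integrable_sub_mul hv μ hs hη).norm ?_
    · exact ((hvm.sub aestronglyMeasurable_const).mul ((Pp_meas hhm).aemeasurable.div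
        (Sp_meas hhm).aemeasurable).aestronglyMeasurable).mul hη.mem.1
    · filter_upwards [A.ae_pt] with x p
      rw [norm_mul, norm_mul, norm_mul, norm_mul]
      refine mul_le_mul_of_nonneg_right (mul_le_mul_of_nonneg_left ?_ (norm_nonneg _))
        (norm_nonneg _)
      have hS := Sp_pos (h := h) (F := q.1) (ep_pos q.2) x
      have hP := Pp_nonneg (h := h) (F := q.1) x
      rw [Real.norm_of_nonneg (div_nonneg hP hS.le), Real.norm_of_nonneg (Real.sqrt_nonneg _),
        div_le_iff₀ hS]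
      calc Pp h q.1 x = Real.sqrt (Pp h q.1 x) * Real.sqrt (Pp h q.1 x) :=
            (Real.mul_self_sqrt hP).symm
        _ ≤ Real.sqrt (ρ x) * Sp h q.1 (ep q.2) x :=
            mul_le_mul (Real.sqrt_le_sqrt (p.P_le q.1)) (sqrt_Pp_le_Sp x)
              (Real.sqrt_nonneg _) (Real.sqrt_nonneg _)
    · filter_upwards [A.ae_pt, hρ] with x p hx
      have : Tendsto (fun q : Finset ι × ℕ => Pp h q.1 x / Sp h q.1 (ep q.2) x) (LL ι)
          (𝓝 (ρ x / Real.sqrt (ρ x))) := p.P_tendsto.div p.S_tendsto (Real.sqrt_pos.2 hx).ne'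
      rw [Real.div_sqrt] at this
      exact (this.const_mul _).mul_const _
  have t3 : Tendsto (fun q : Finset ι × ℕ =>
      ∫ x, φ x * η x * ((∑ j ∈ q.1, c j * h j x) / Sp h q.1 (ep q.2) x)) (LL ι)
      (𝓝 (∫ x, φ x * η x * (2 * φ x / Real.sqrt (ρ x)))) := by
    refine tendsto_integral_filter_of_dominated_convergence
      (fun x => ‖φ x * η x‖ * Real.sqrt 2)
      (Eventually.of_forall fun q => ?_)
      (Eventually.of_forall fun q => ?_) ((hφm.integrable_mul hη.mem).norm.mul_const _) ?_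
    · exact (hφm.1.mul hη.mem.1).mul ((Finset.aestronglyMeasurable_fun_sum _ fun j _ =>
        (hhm j).const_mul (c j)).aemeasurable.div (Sp_meas hhm).aemeasurable).aestronglyMeasurable
    · filter_upwards [A.ae_pt] with x p
      rw [norm_mul]
      refine mul_le_mul_of_nonneg_left ?_ (norm_nonneg _)
      have hS := Sp_pos (h := h) (F := q.1) (ep_pos q.2) x
      have hP := Pp_nonneg (h := h) (F := q.1) x
      have hcs : (∑ j ∈ q.1, c j * h j x) ^ 2 ≤ 2 * Pp h q.1 x := by
        refine (Finset.sum_mul_sq_le_sq_mul_sq q.1 _ _).trans ?_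
        exact mul_le_mul_of_nonneg_right (sum_le_hasSum q.1 (fun j _ => sq_nonneg _) hc) hP
      rw [norm_div, Real.norm_eq_abs, Real.norm_of_nonneg hS.le, div_le_iff₀ hS,
        ← Real.sqrt_sq_eq_abs]
      calc Real.sqrt ((∑ j ∈ q.1, c j * h j x) ^ 2) ≤ Real.sqrt (2 * Pp h q.1 x) :=
            Real.sqrt_le_sqrt hcs
        _ = Real.sqrt 2 * Real.sqrt (Pp h q.1 x) := Real.sqrt_mul (by norm_num) _
        _ ≤ Real.sqrt 2 * Sp h q.1 (ep q.2) x :=
            mul_le_mul_of_nonneg_left (sqrt_Pp_le_Sp x) (Real.sqrt_nonneg _)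
    · filter_upwards [A.ae_pt, hρ, hsum] with x p hx hsx
      have h1 : Tendsto (fun q : Finset ι × ℕ => ∑ j ∈ q.1, c j * h j x) (LL ι)
          (𝓝 (2 * φ x)) :=
        Tendsto.comp (f := Prod.fst)
          (show Tendsto (fun F : Finset ι => ∑ j ∈ F, c j * h j x) atTop (𝓝 (2 * φ x)) from hsx)
          tendsto_fst
      exact (h1.div p.S_tendsto (Real.sqrt_pos.2 hx).ne').const_mul _
  have hle : qf v μ (fun x => Real.sqrt (ρ x)) (gs ρ h g) η gη ≤
      -δ * ∫ x, φ x * η x * (2 * φ x / Real.sqrt (ρ x)) := by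
    unfold qf
    refine le_of_tendsto_of_tendsto ((t1.const_mul (1 / 2)).add t2) (t3.const_mul (-δ))
      (Eventually.of_forall fun q => ?_)
    exact ineq_part hv A.h1 hφm heq hη h0 hC (ep_pos q.2)
  refine hle.trans ?_
  have : 0 ≤ ∫ x, φ x * η x * (2 * φ x / Real.sqrt (ρ x)) := by
    refine integral_nonneg_of_ae ?_
    filter_upwards [hφ, h0] with x h1 h2
    have := Real.sqrt_nonneg (ρ x)
    change 0 ≤ φ x * η x * (2 * φ x / Real.sqrt (ρ x))
    positivity
  nlinarith

end Ineq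

/-! ### general test functions -/

theorem min_H1 {f : R3 → ℝ} {k : Fin 3 → R3 → ℝ} (hf : H1 f k) (h0 : ∀ᵐ x, 0 ≤ f x) {n : ℝ}
    (hn : 0 ≤ n) :
    H1 (fun x => min (f x) n) (fun i x => if n < f x then 0 else k i x) := by
  have hm : AEStronglyMeasurable (fun x => min (f x) n) (volume : Measure R3) :=
    hf.mem.1.inf aestronglyMeasurable_const
  have hset : NullMeasurableSet {x | n < f x} (volume : Measure R3) :=
    nullMeasurableSet_lt aemeasurable_const hf.mem.1.aemeasurable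
  have hgm : ∀ i, AEStronglyMeasurable (fun x => if n < f x then 0 else k i x)
      (volume : Measure R3) := by
    intro i
    have := (hf.gmem i).1.indicator₀ hset.compl
    refine this.congr (Eventually.of_forall fun x => ?_)
    by_cases hx : n < f x
    · simp [hx]
    · simp [hx]
  refine ⟨?_, fun i => ?_, fun i => ?_⟩
  · refine hf.mem.of_le hm ?_
    filter_upwards [h0] with x hx
    rw [Real.norm_of_nonneg (le_min hx hn), Real.norm_of_nonneg hx]
    exact min_le_left _ _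
  · refine (hf.gmem i).of_le (hgm i) (Eventually.of_forall fun x => ?_)
    split_ifs
    · simp
    · exact le_rfl
  · have h1 : IsWD (volume : Measure R3) (dir i) (fun x => f x - n) (fun x => k i x - 0) :=
      (hf.wd i).sub (isWD_const n) hf.locInt (hf.glocInt i) (locallyIntegrable_const n)
        (locallyIntegrable_const 0)
    have l1 : LocallyIntegrable (fun x => f x - n) (volume : Measure R3) :=
      hf.locInt.sub (locallyIntegrable_const n)
    have l2 : LocallyIntegrable (fun x => k i x - 0) (volume : Measure R3) :=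
      (hf.glocInt i).sub (locallyIntegrable_const 0)
    have h2 := h1.pos_part l1 l2
    have l3 : LocallyIntegrable (fun x => max (f x - n) 0) (volume : Measure R3) := by
      refine l1.mono (l1.aestronglyMeasurable.sup aestronglyMeasurable_const)
        (Eventually.of_forall fun x => ?_)
      rw [Real.norm_eq_abs, Real.norm_eq_abs, abs_of_nonneg (le_max_right _ _)]
      exact max_le (le_abs_self _) (abs_nonneg _)
    have hset' : NullMeasurableSet {x | 0 < f x - n} (volume : Measure R3) := by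
      simpa only [sub_pos] using hset
    have l4 : LocallyIntegrable (fun x => if 0 < f x - n then k i x - 0 else 0)
        (volume : Measure R3) := by
      refine l2.mono (l2.aestronglyMeasurable.indicator₀ hset') (Eventually.of_forall fun x => ?_)
      split_ifs
      · exact le_rfl
      · simp
    have h3 := (hf.wd i).sub h2 hf.locInt (hf.glocInt i) l3 l4
    refine h3.congr (Eventually.of_forall fun x => ?_) (Eventually.of_forall fun x => ?_)
    · change f x - max (f x - n) 0 = min (f x) n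
      rcases le_total (f x) n with hx | hx
      · rw [max_eq_right (by linarith), min_eq_left hx, sub_zero]
      · rw [max_eq_left (by linarith), min_eq_right hx]; ring
    · change k i x - (if 0 < f x - n then k i x - 0 else 0) = if n < f x then 0 else k i x
      simp only [sub_pos, sub_zero]
      split_ifs <;> ring

theorem qf_min_tendsto {v : R3 → ℝ} {μ : ℝ} (hv : MemV v) {s f : R3 → ℝ}
    {a k : Fin 3 → R3 → ℝ} (hs : H1 s a) (hf : H1 f k) (h0 : ∀ᵐ x, 0 ≤ f x) :
    Tendsto (fun n : ℕ => qf v μ s a (fun x => min (f x) n)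
      (fun i x => if (n : ℝ) < f x then 0 else k i x)) atTop (𝓝 (qf v μ s a f k)) := by
  unfold qf
  refine Tendsto.add (Tendsto.const_mul _ ?_) ?_
  · refine tendsto_integral_of_dominated_convergence (fun x => ∑ i, ‖a i x * k i x‖)
      (fun n => ?_) ?_ (fun n => Eventually.of_forall fun x => ?_)
      (Eventually.of_forall fun x => ?_)
    · exact (hs.integrable_dot (min_H1 hf h0 (Nat.cast_nonneg n))).1
    · exact integrable_finsetSum _ fun i _ => ((hs.gmem i).integrable_mul (hf.gmem i)).norm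
    · refine (norm_sum_le _ _).trans (Finset.sum_le_sum fun i _ => ?_)
      beta_reduce
      split_ifs
      · rw [mul_zero, norm_zero]; exact norm_nonneg _
      · exact le_rfl
    · refine tendsto_finsetSum _ fun i _ => ?_
      refine tendsto_const_nhds.congr' ?_
      obtain ⟨N, hN⟩ := exists_nat_ge (f x)
      filter_upwards [eventually_ge_atTop N] with n hn
      have : ¬ ((n : ℝ) < f x) := not_lt.2 (hN.trans (Nat.cast_le.2 hn))
      rw [if_neg this]
  · refine tendsto_integral_of_dominated_convergence (fun x => ‖(v x - μ) * s x * f x‖)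
      (fun n => ?_) ?_ (fun n => ?_) (Eventually.of_forall fun x => ?_)
    · exact (memV_integrable_sub_mul hv μ hs (min_H1 hf h0 (Nat.cast_nonneg n))).1
    · exact (memV_integrable_sub_mul hv μ hs hf).norm
    · filter_upwards [h0] with x hx
      rw [norm_mul, norm_mul (_ * _)]
      refine mul_le_mul_of_nonneg_left ?_ (norm_nonneg _)
      rw [Real.norm_of_nonneg (le_min hx (Nat.cast_nonneg n)), Real.norm_of_nonneg hx]
      exact min_le_left _ _
    · refine tendsto_const_nhds.congr' ?_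
      obtain ⟨N, hN⟩ := exists_nat_ge (f x)
      filter_upwards [eventually_ge_atTop N] with n hn
      rw [min_eq_left (hN.trans (Nat.cast_le.2 hn))]

/-- B6.SUB, version with the pointwise expansion of `2φ`. -/
theorem subsolution_ae {v ρ φ : R3 → ℝ} {μ δ : ℝ} {ι : Type*} [Countable ι] {h : ι → R3 → ℝ}
    {g : ι → Fin 3 → R3 → ℝ} {c : ι → ℝ} (hv : MemV v) (A : Fam ρ h g) (hδ : 0 ≤ δ)
    (hφm : MemLp φ 2 (volume : Measure R3)) (hφ : ∀ᵐ x, 0 < φ x)
    (hc : HasSum (fun j => c j ^ 2) 2)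
    (hsae : ∀ᵐ x, HasSum (fun j => c j * h j x) (2 * φ x))
    (heq : ∀ j f k, H1 f k → qf v μ (h j) (g j) f k = -δ * c j * ∫ x, φ x * f x) :
    H1 (fun x => Real.sqrt (ρ x)) (gs ρ h g) ∧ (∀ᵐ x, 2 * φ x ^ 2 ≤ ρ x) ∧
      ∀ f k, H1 f k → (∀ᵐ x, 0 ≤ f x) → qf v μ (fun x => Real.sqrt (ρ x)) (gs ρ h g) f k ≤ 0 := by
  have h2 : ∀ᵐ x, 2 * φ x ^ 2 ≤ ρ x := by
    filter_upwards [hsae, A.dens] with x h1 h3
    have h4 : (2 * φ x) ^ 2 ≤ 2 * ρ x := by
      have t : Tendsto (fun F : Finset ι => (∑ j ∈ F, c j * h j x) ^ 2) atTop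
          (𝓝 ((2 * φ x) ^ 2)) := Tendsto.pow h1 2
      exact le_of_tendsto t (Eventually.of_forall fun F => sq_sum_le hc h3 F)
    nlinarith
  have hρ : ∀ᵐ x, 0 < ρ x := by
    filter_upwards [h2, hφ] with x h3 h4
    have := pow_pos h4 2
    linarith
  refine ⟨sqrt_H1 A, h2, fun f k hf h0 => ?_⟩
  refine le_of_tendsto (qf_min_tendsto hv (sqrt_H1 A) hf h0) (Eventually.of_forall fun n => ?_)
  refine sub_bdd (C := n) hv A hδ hφm hφ hc heq hsae hρ (min_H1 hf h0 (Nat.cast_nonneg n)) ?_ ?_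
  · filter_upwards [h0] with x hx using le_min hx (Nat.cast_nonneg n)
  · filter_upwards [h0] with x hx
    rw [abs_of_nonneg (le_min hx (Nat.cast_nonneg n))]
    exact min_le_right _ _

/-- **B6.SUB.** Let `ρ = ∑ hⱼ²`, `(-½Δ+v-μ) hⱼ = -δ cⱼ φ` with `φ > 0`, `∑ cⱼ² = 2`,
`∑ cⱼ hⱼ = 2 φ` (weakly). Then `2φ² ≤ ρ` and `√ρ ∈ H¹` is a weak subsolution of
`(-½Δ+v-μ) √ρ ≤ 0`. -/
theorem subsolution {v ρ φ : R3 → ℝ} {μ δ : ℝ} {ι : Type*} [Countable ι] {h : ι → R3 → ℝ}
    {g : ι → Fin 3 → R3 → ℝ} {c : ι → ℝ} (hv : MemV v) (A : Fam ρ h g) (hδ : 0 ≤ δ)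
    (hφm : MemLp φ 2 (volume : Measure R3)) (hφ : ∀ᵐ x, 0 < φ x)
    (hc : HasSum (fun j => c j ^ 2) 2)
    (hsum : ∀ u : R3 → ℝ, MemLp u 2 (volume : Measure R3) →
      HasSum (fun j => c j * ∫ x, u x * h j x) (2 * ∫ x, u x * φ x))
    (heq : ∀ j f k, H1 f k → qf v μ (h j) (g j) f k = -δ * c j * ∫ x, φ x * f x) :
    H1 (fun x => Real.sqrt (ρ x)) (gs ρ h g) ∧ (∀ᵐ x, 2 * φ x ^ 2 ≤ ρ x) ∧
      ∀ f k, H1 f k → (∀ᵐ x, 0 ≤ f x) → qf v μ (fun x => Real.sqrt (ρ x)) (gs ρ h g) f k ≤ 0 := by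
  have hsae : ∀ᵐ x, HasSum (fun j => c j * h j x) (2 * φ x) := by
    refine sum_eq_ae (fun j => (A.h1 j).mem) A.dens A.dens_int hc (w := fun x => 2 * φ x)
      (hφm.const_mul 2) fun u hu => ?_
    have : ∫ x, u x * (2 * φ x) = 2 * ∫ x, u x * φ x := by
      rw [← integral_const_mul]
      exact integral_congr_ae (Eventually.of_forall fun x => by ring)
    rw [this]
    exact hsum u hu
  exact subsolution_ae hv A hδ hφm hφ hc hsae heq

end

end Vale.Agent.P363.H884
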