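import Vale.Agent.P363.H884.Sub
import Vale.Agent.P363.H574.Defs

/-! B6.SUB in the form requested by helper574. -/

namespace Vale.Agent.P363.H884

open MeasureTheory Filter Topology
open Vale.Agent.P363.Stmt
open Vale.Agent.P363.R.Sob
open Vale.Agent.P363.R.KS (H1 qf KSData)
open Vale.Agent.P363.H574 (NatFam)
open scoped ContDiff ENNReal

noncomputable section

theorem _root_.Vale.Agent.P363.H574.NatFam.fam {v ρ : R3 → ℝ} {E : ℝ} {ι : Type}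
    {h : ι → R3 → ℝ} {g : ι → Fin 3 → R3 → ℝ} (N : NatFam v ρ E h g) : Fam ρ h g :=
  ⟨N.h1, N.dens, N.dens_int, N.kin⟩

theorem sub_sqrt {v ρ : R3 → ℝ} {E : ℝ} {ι : Type} [Countable ι] {h : ι → R3 → ℝ}
    {g : ι → Fin 3 → R3 → ℝ} (N : NatFam v ρ E h g) {μ δ : ℝ} (hδ : 0 ≤ δ) {φ : R3 → ℝ}
    {gφ : Fin 3 → R3 → ℝ} (hφ : H1 φ gφ) (hpos : ∀ᵐ x, 0 < φ x) (c : ι → ℝ)
    (hc : HasSum (fun j => c j ^ 2) 2)
    (hsum : ∀ᵐ x, HasSum (fun j => c j * h j x) (2 * φ x))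
    (heq : ∀ j f k, H1 f k → qf v μ (h j) (g j) f k = -δ * c j * ∫ x, φ x * f x) :
    ∃ gs : Fin 3 → R3 → ℝ, H1 (fun x => Real.sqrt (ρ x)) gs ∧
      ∀ η k, H1 η k → (∀ᵐ x, 0 ≤ η x) → qf v μ (fun x => Real.sqrt (ρ x)) gs η k ≤ 0 := by
  obtain ⟨h1, -, h3⟩ := subsolution_ae N.memV N.fam hδ hφ.mem hpos hc hsum heq
  exact ⟨_, h1, h3⟩

end

end Vale.Agent.P363.H884
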